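import Crest.Agent.R182.B.PM

/-! R182/CLZ/Cls (helper94): the compactness argument -/

set_option autoImplicit false
set_option linter.unusedVariables false
set_option linter.unusedSectionVars false
open Set Filter Topology MeasureTheory ProbabilityTheory Matrix Crest.GroupTheory
open scoped Pointwise commutatorElement ENNReal

noncomputable section
namespace Crest.Agent.R182

namespace Model
variable {h k : ℕ} (M : Model h k)

theorem cls_of (K Λ η : ℝ) (hη : 0 < η) (hW : ∀ L : Mat k, (∀ t ε w₀ : ℝ, 0 < ε → ∃ (f : M.QP K) (p : M.G) (w : ℝ) (κ : Fin k → ℝ),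
    w₀ ≤ w ∧ M.PF f.φ p w L κ t ε) → L ∈ M.W1) : ∃ t ε w₀ : ℝ, 1 ≤ t ∧ 0 < ε ∧ ∀ (f : M.QP K) (p : M.G) (w : ℝ) (L : Mat k)
      (κ : Fin k → ℝ), w₀ ≤ w → Mb L Λ → M.PF f.φ p w L κ t ε → ∃ L' ∈ M.W1, Mb (L - L') η := by
  by_contra hc
  push Not at hc
  choose f p w L κ hw hL hP hn using fun n : ℕ => hc (n + 1) (1 / (n + 1)) (n + 1) (by linarith [Nat.cast_nonneg (α := ℝ) n])
    (by positivity)
  have hK : IsCompact (Set.pi univ fun i : Fin k => Set.pi univ fun j : Fin k => Icc (-Λ) Λ) :=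
    isCompact_univ_pi fun _ => isCompact_univ_pi fun _ => isCompact_Icc
  obtain ⟨L₀, -, u, hu, hlim⟩ := IsCompact.tendsto_subseq (X := Fin k → Fin k → ℝ) hK (x := L) fun n i _ j _ => abs_le.1 (hL n i j)
  have hev : ∀ e : ℝ, 0 < e → ∀ᶠ n in atTop, Mb (L (u n) - Matrix.of L₀) e := fun e he => by
    refine eventually_all.2 fun i => eventually_all.2 fun j => ?_
    exact (Metric.tendsto_nhds.1 (tendsto_pi_nhds.1 (tendsto_pi_nhds.1 hlim i) j) e he).mono fun n hn => le_of_lt hn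
  have hbig : ∀ a : ℝ, ∀ᶠ n in atTop, a ≤ (u n : ℝ) + 1 := fun a =>
    ((tendsto_natCast_atTop_atTop.comp hu.tendsto_atTop).eventually_ge_atTop a).mono fun n hn => le_trans hn (by simp)
  have h0 : Matrix.of L₀ ∈ M.W1 := hW _ fun t ε w₀ hε => by
    obtain ⟨n, h1, h2, h3, h4⟩ := ((hev (ε / (2 * (k + 1))) (by positivity)).and ((hbig t).and ((hbig w₀).and (hbig (2 / ε))))).exists
    have hw0 : 0 ≤ w (u n) := le_trans (by positivity) (hw _)
    refine ⟨f (u n), p (u n), w (u n), _, h3.trans (hw _), ((hP (u n)).perturb hw0 (by positivity) (by positivity) h1).mono hw0 h2 ?_⟩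
    have h5 : 1 / ((u n : ℝ) + 1) ≤ ε / 2 := by
      rw [div_le_iff₀ (by positivity)]
      rw [div_le_iff₀ hε] at h4
      linarith
    have h6 : (k + 1 : ℝ) * (ε / (2 * (k + 1))) = ε / 2 := by field_simp
    have h7 : 0 < ε / (2 * (k + 1)) := by positivity
    linarith
  obtain ⟨n, h1⟩ := (hev η hη).exists
  exact hn _ _ h0 h1

end Model

end Crest.Agent.R182
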