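import Crest.Agent.R182.CLZ.AuxA

/-! R182/CLZ/AuxB (owner helper64): measure tools -/

set_option autoImplicit false
set_option linter.unusedVariables false
set_option linter.unusedSectionVars false
open Set Filter Topology MeasureTheory ProbabilityTheory Matrix Crest.GroupTheory
open scoped Pointwise commutatorElement ENNReal

noncomputable section
namespace Crest.Agent.R182

namespace Model
variable {h k : ℕ} (M : Model h k)

/-- `Measure.prod_apply`, `Measure.prod_apply_symm`: `(ν.prod la) A ≤ 4⁻¹` and `(ν.prod la) Aᶜ ≤ 4⁻¹` (see the proof of `markov_fubini`) -/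
theorem fubini_contra {ν la : Measure M.G} [IsProbabilityMeasure ν] [IsProbabilityMeasure la] {A : Set (M.G × M.G)}
    (hA : MeasurableSet A) (h1 : ∀ x, ν {x' | (x', x) ∈ A} ≤ 4⁻¹) (h2 : ∀ᵐ x' ∂ν, la {x | (x', x) ∉ A} ≤ 4⁻¹) : False := by

  have e1 : (ν.prod la) A ≤ 4⁻¹ := by
    rw [Measure.prod_apply_symm hA]
    exact (lintegral_mono h1).trans_eq (by rw [lintegral_const, measure_univ, mul_one])
  have e2 : (ν.prod la) Aᶜ ≤ 4⁻¹ := by
    rw [Measure.prod_apply hA.compl]
    exact (lintegral_mono_ae h2).trans_eq (by rw [lintegral_const, measure_univ, mul_one])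
  have e3 := add_le_add e1 e2
  rw [measure_add_measure_compl hA, measure_univ] at e3
  have e4 : (4⁻¹ : ℝ≥0∞) < 2⁻¹ := by norm_num
  have := ENNReal.add_lt_add e4 e4
  rw [ENNReal.inv_two_add_inv_two] at this
  exact absurd e3 (not_le.2 this)

/-- `Ln`, `measurable_cc` -/
theorem measurable_Ln {φ : M.G → M.G} (hφ : Measurable φ) (n : ℕ) (i j : Fin k) : Measurable fun p => M.Ln φ n p i j := by

  have := (measurable_pi_apply i).comp ((M.measurable_cc hφ).comp (measurable_prodMk_left (x := M.gen j ^ n)))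
  exact this.div_const _

/-- `measurable_Ln`, `measurable_cc`, `measurable_chi`; write `mulVec` coordinatewise (`measurable_pi_iff`, `Finset.measurable_sum`) -/
theorem measurable_locerr {φ : M.G → M.G} (hφ : Measurable φ) (n : ℕ) (y : M.G) :
    Measurable fun z : M.G × M.G => ‖M.cc φ (z.2 * y) z.1 - M.Ln φ n z.1 *ᵥ M.chi (z.2 * y)‖ := by

  have h0 : Measurable fun z : M.G × M.G => z.2 * y := measurable_snd.mul_const y
  have h2 : Measurable fun z : M.G × M.G => M.cc φ (z.2 * y) z.1 :=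
    (M.measurable_chi.comp (hφ.comp (measurable_fst.mul h0))).sub (M.measurable_chi.comp (hφ.comp measurable_fst))
  have h3 : Measurable fun z : M.G × M.G => M.chi (z.2 * y) := M.measurable_chi.comp h0
  have h4 : Measurable fun z : M.G × M.G => M.Ln φ n z.1 *ᵥ M.chi (z.2 * y) := by
    refine measurable_pi_iff.2 fun i => ?_
    show Measurable fun z : M.G × M.G => ∑ j, M.Ln φ n z.1 i j * M.chi (z.2 * y) j
    refine Finset.measurable_sum Finset.univ fun j _ => Measurable.mul ?_ ?_
    · exact (M.measurable_Ln hφ n i j).comp measurable_fst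
    · exact (measurable_pi_apply j).comp h3
  exact (h2.sub h4).norm

/-- Rounding.  `Lp p = if h : ∃ L' ∈ W1, Mb (F p - L') η then h.choose else 1` (`one_mem_W1`).  By `hsep` the chosen matrix is the only candidate, so
`{p | Lp p = L} = {p | L ∈ W1 ∧ Mb (F p - L) η} ∪ {p | L = 1 ∧ ∀ L' ∈ W1, ¬Mb (F p - L') η}` (`finite_W1`). -/
theorem exists_round (F : M.G → Mat k) (hF : ∀ i j, Measurable fun p => F p i j) {η : ℝ}
    (hsep : ∀ L ∈ M.W1, ∀ L' ∈ M.W1, Mb (L - L') (2 * η) → L = L') : ∃ Lp : M.G → Mat k, (∀ p, Lp p ∈ M.W1) ∧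
      (∀ L, MeasurableSet {p | Lp p = L}) ∧ ∀ p, ∀ L' ∈ M.W1, Mb (F p - L') η → Lp p = L' := by

  classical
  have huniq : ∀ p, ∀ L ∈ M.W1, ∀ L' ∈ M.W1, Mb (F p - L) η → Mb (F p - L') η → L = L' := fun p L hL L' hL' h1 h2 =>
    hsep L hL L' hL' fun i j => by
      have a := abs_le.1 (h1 i j)
      have b := abs_le.1 (h2 i j)
      simp only [Matrix.sub_apply] at a b ⊢
      exact abs_le.2 ⟨by linarith, by linarith⟩
  have hm : ∀ L : Mat k, MeasurableSet {p | Mb (F p - L) η} := fun L => by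
    simp only [Mb, setOf_forall, Matrix.sub_apply]
    exact MeasurableSet.iInter fun i => MeasurableSet.iInter fun j =>
      measurableSet_le ((hF i j).sub_const _).abs measurable_const
  set Lp : M.G → Mat k := fun p => if hp : ∃ L' ∈ M.W1, Mb (F p - L') η then hp.choose else 1 with hLp
  have h3 : ∀ p, ∀ L' ∈ M.W1, Mb (F p - L') η → Lp p = L' := fun p L' hL' h1 => by
    have hp : ∃ L' ∈ M.W1, Mb (F p - L') η := ⟨L', hL', h1⟩
    simp only [hLp, dif_pos hp]
    exact huniq p _ hp.choose_spec.1 _ hL' hp.choose_spec.2 h1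
  refine ⟨Lp, fun p => ?_, fun L => ?_, h3⟩
  · simp only [hLp]
    split_ifs with hp
    exacts [hp.choose_spec.1, M.one_mem_W1]
  · have e : {p | Lp p = L} = ({p | L ∈ M.W1} ∩ {p | Mb (F p - L) η}) ∪
        ({p | L = 1} ∩ ⋂ L' ∈ M.W1, {p | Mb (F p - L') η}ᶜ) := by
      ext p
      simp only [mem_setOf_eq, mem_union, mem_inter_iff, mem_iInter, mem_compl_iff]
      by_cases hp : ∃ L' ∈ M.W1, Mb (F p - L') η
      · obtain ⟨L', a, b⟩ := hp
        rw [h3 p L' a b]
        exact ⟨fun e => Or.inl (e ▸ ⟨a, b⟩), fun e => e.elim (fun e => huniq p _ a _ e.1 b e.2) fun e => absurd b (e.2 L' a)⟩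
      · simp only [hLp, dif_neg hp]
        exact ⟨fun e => Or.inr ⟨e.symm, fun L' a b => hp ⟨L', a, b⟩⟩, fun e => e.elim (fun e => absurd ⟨L, e⟩ hp) fun e => e.1.symm⟩
    rw [e]
    exact ((MeasurableSet.const _).inter (hm L)).union ((MeasurableSet.const _).inter
      (MeasurableSet.biInter M.finite_W1.countable fun L' _ => (hm L').compl))


end Model

end Crest.Agent.R182
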