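import Crest.Agent.R182.CLZ.LocA
import Crest.Agent.R182.CLZ.AuxB

/-! R182/CLZ/LocB (owner helper64): purity at most points -/

set_option autoImplicit false
set_option linter.unusedVariables false
set_option linter.unusedSectionVars false
open Set Filter Topology MeasureTheory ProbabilityTheory Matrix Crest.GroupTheory
open scoped Pointwise commutatorElement ENNReal

noncomputable section
namespace Crest.Agent.R182

namespace Model
variable {h k : ℕ} (M : Model h k)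

/-- `loc_det K t ε'` (`Lip.mb_Ln`), `Λ_b` from `len_Box t'`, `Λ' = Λ_b + t`, `δ'' = δ' ε'' / (N + 1)`.  The bad set is contained in the union over `y ∈ F` of
`{p | ofReal ε'' < lw E (t' • Box n) {x | (p, x) ∈ A y}}`, `A y = {z | ε'' n < ‖cc (z.2 * y) z.1 - Ln n z.1 *ᵥ chi (z.2 * y)‖}` (`measurable_locerr`);
`markov_fubini` (`isProbabilityMeasure_lw_Box`, `lw_compl`, `mul_mem_ballR`, `ballCR_subset_ballR`), `measure_biUnion_finset_le`. -/
theorem loc_pf (K t ε' δ' : ℝ) (hK : 0 ≤ K) (ht : 1 ≤ t) (hε : 0 < ε') (hδ : 0 < δ') : ∃ Λ' ε'' δ'' w₀ : ℝ, 0 < ε'' ∧ 0 < δ'' ∧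
    ∀ (f : M.QP K) (μ : Measure M.G) (n : ℕ), IsProbabilityMeasure μ → w₀ ≤ n →
      (∀ g ∈ M.ballR (Λ' * n), μ {p | ε'' * n < ‖M.cc f.φ g p - M.Ln f.φ n p *ᵥ M.chi g‖} ≤ ENNReal.ofReal δ'') →
      μ {p | ¬M.PF f.φ p n (M.Ln f.φ n p) (M.er f.φ (M.Ln f.φ n p) p) t ε'} ≤ ENNReal.ofReal δ' := by
  obtain ⟨t', ε'', w₀, N, ht', hε'', hdet⟩ := M.loc_det K t ε' hK ht hε
  obtain ⟨Λ, hΛ, hlen⟩ := M.len_Box t'
  refine ⟨Λ + t, ε'', δ' * ε'' / (N + 1), max w₀ 1, hε'', by positivity, fun f μ n hμ hn hg => ?_⟩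
  obtain ⟨F, hF, hcard, hP⟩ := hdet n ((le_max_left _ _).trans hn)
  haveI := M.isProbabilityMeasure_lw_Box (zero_lt_one.trans_le ht') n
  have hb : ∀ y ∈ F, μ {p | ENNReal.ofReal ε'' < M.lw M.E (t' • M.Box n)
      {x | ε'' * n < ‖M.cc f.φ (x * y) p - M.Ln f.φ n p *ᵥ M.chi (x * y)‖}} ≤ ENNReal.ofReal (δ' / (N + 1)) := fun y hy => by
    have h0 : ∀ᵐ x ∂M.lw M.E (t' • M.Box n), x ∈ M.exp '' (M.E ∩ t' • M.Box n) := M.lw_compl M.E ((M.isCompact_Box n).smul t')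
    have h1 := M.markov_fubini (ν := μ) (la := M.lw M.E (t' • M.Box n)) (a := ENNReal.ofReal (δ' * ε'' / (N + 1)))
      (A := {z : M.G × M.G | ε'' * n < ‖M.cc f.φ (z.2 * y) z.1 - M.Ln f.φ n z.1 *ᵥ M.chi (z.2 * y)‖})
      (measurableSet_lt measurable_const (M.measurable_locerr f.mφ n y)) (ENNReal.ofReal_pos.2 hε'').ne' (h0.mono (by
        rintro _ ⟨X, hX, rfl⟩
        refine hg (M.exp X * y) ?_
        rw [add_mul]
        exact M.mul_mem_ballR ((hlen n ((le_max_right _ _).trans hn)).1 ⟨X, hX.2, rfl⟩) (M.ballCR_subset_ballR _ (hF hy))))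
    refine h1.trans_eq ?_
    rw [← ENNReal.ofReal_div_of_pos hε'']
    congr 1
    field_simp
  refine (measure_mono (t := ⋃ y ∈ F, {p | ENNReal.ofReal ε'' < M.lw M.E (t' • M.Box n)
      {x | ε'' * n < ‖M.cc f.φ (x * y) p - M.Ln f.φ n p *ᵥ M.chi (x * y)‖}}) fun p hp => ?_).trans
    ((measure_biUnion_finset_le _ _).trans ((Finset.sum_le_card_nsmul _ _ _ hb).trans ?_))
  · by_contra hc
    simp only [mem_iUnion, mem_setOf_eq, not_exists, not_lt] at hc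
    exact hp (hP f.φ p _ f.lφ (f.lφ.mb_Ln hK n p) hc)
  · rw [nsmul_eq_mul, ← ENNReal.ofReal_natCast, ← ENNReal.ofReal_mul (Nat.cast_nonneg _)]
    refine ENNReal.ofReal_le_ofReal ?_
    have h1 : (F.card : ℝ) ≤ N + 1 := by exact_mod_cast hcard.trans (Nat.le_succ N)
    refine (mul_le_mul_of_nonneg_right h1 (by positivity)).trans_eq ?_
    field_simp


end Model

end Crest.Agent.R182
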