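import Crest.Agent.R182.B.ENG
import Crest.Agent.R182.B.CMP
import Crest.Agent.R182.B.SP

/-! R182/CLZ/AuxA (owner helper64): small tools -/

set_option autoImplicit false
set_option linter.unusedVariables false
set_option linter.unusedSectionVars false
open Set Filter Topology MeasureTheory ProbabilityTheory Matrix Crest.GroupTheory
open scoped Pointwise commutatorElement ENNReal

noncomputable section
namespace Crest.Agent.R182

namespace Model
variable {h k : ℕ} (M : Model h k)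

omit M in
/-- `Λ = 1 + ∑ i, ∑ j, (|L i j| + |L' i j|)`, `Finset.single_le_sum` -/
theorem _root_.Crest.Agent.R182.exists_mb (L L' : Mat k) : ∃ Λ : ℝ, 1 ≤ Λ ∧ Mb L Λ ∧ Mb L' Λ := by
  have h0 : ∀ i j, |L i j| + |L' i j| ≤ ∑ i, ∑ j, (|L i j| + |L' i j|) := fun i j =>
    (Finset.single_le_sum (f := fun j => |L i j| + |L' i j|) (fun j _ => by positivity) (Finset.mem_univ j)).trans
      (Finset.single_le_sum (f := fun i => ∑ j, (|L i j| + |L' i j|)) (fun i _ => by positivity) (Finset.mem_univ i))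
  refine ⟨1 + ∑ i, ∑ j, (|L i j| + |L' i j|), le_add_of_nonneg_right (by positivity), fun i j => ?_, fun i j => ?_⟩ <;>
    linarith [h0 i j, abs_nonneg (L i j), abs_nonneg (L' i j)]

/-- `be_one`, `AdmC_subset_Adm`, `mul_mem_Adm'` -/
theorem ballR_subset_Adm' (r : ℝ) : M.ballR r ⊆ M.Adm r r := by
  intro g hg
  have h1 : (1 : M.G) ∈ M.Adm 0 0 := ⟨[], fun x hx => by simp at hx, by simp, fun l' hl' => by
    rw [List.prefix_nil.1 hl', List.prod_nil, M.chi_one]; simp [nm], rfl⟩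
  simpa using M.mul_mem_Adm' h1 hg

/-- `Wrd.len_le` for the word `[x]` -/
theorem Wrd.mem_ballR {M : Model h k} {l : List M.G} (hl : M.Wrd l) : ∀ x ∈ l, x ∈ M.ballR 1 := by
  intro x hx
  have h1 : M.Wrd [x] := fun y hy => List.mem_singleton.1 hy ▸ hl x hx
  have h2 := h1.len_le
  rw [List.prod_singleton, List.length_singleton] at h2
  show (M.len x : ℝ) ≤ 1
  exact_mod_cast h2

/-- For `i` test with `g = gen i ^ j` and `g⁻¹`, `j = ⌊θ w⌋₊ ≥ θ w / 2` (`w₁ = 2 / θ`; `gen_mem_ballCR`, `pow_mem_ballCR`, `ballCR_subset_ballR`,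
`inv_mem_ballR`, `chi_pow`, `chi_gen`, `chi_inv`): `|u i| θ / 2 ≤ C ε₁` for all small `ε₁ > 0`. -/
theorem eq_zero_of_small (u : Fin k → ℝ) {θ C ε₀ : ℝ} (hθ : 0 < θ) (hε : 0 < ε₀)
    (hu : ∀ ε₁, 0 < ε₁ → ε₁ ≤ ε₀ → ∀ w₁ : ℝ, ∃ w, w₁ ≤ w ∧ ∀ g ∈ M.ballR (θ * w), u ⬝ᵥ M.chi g ≤ C * ε₁ * w) : u = 0 := by
  funext i
  have key : ∀ ε₁, 0 < ε₁ → ε₁ ≤ ε₀ → |u i| * (θ / 2) ≤ C * ε₁ := fun ε₁ h1 h2 => by
    obtain ⟨w, hw, h3⟩ := hu ε₁ h1 h2 (2 / θ)
    have hw0 : 0 < w := lt_of_lt_of_le (by positivity) hw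
    have h4 : 2 ≤ θ * w := by rwa [div_le_iff₀' hθ] at hw
    have h5 : θ * w / 2 ≤ ⌊θ * w⌋₊ := by linarith [Nat.lt_floor_add_one (θ * w)]
    have hg : M.gen i ^ ⌊θ * w⌋₊ ∈ M.ballR (θ * w) := M.ballR_mono (by rw [mul_one]; exact Nat.floor_le (by linarith))
      (M.ballCR_subset_ballR _ (M.pow_mem_ballCR (M.gen_mem_ballCR i) _))
    have e1 := h3 _ hg
    have e2 := h3 _ (M.inv_mem_ballR hg)
    rw [M.chi_inv, dotProduct_neg] at e2
    rw [M.chi_pow, M.chi_gen, dotProduct_smul, dotProduct_single, mul_one, smul_eq_mul] at e1 e2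
    have e3 : (⌊θ * w⌋₊ : ℝ) * |u i| ≤ C * ε₁ * w := by
      rcases abs_cases (u i) with h | h <;> rw [h.1] <;> linarith
    refine le_of_mul_le_mul_right ?_ hw0
    nlinarith [mul_le_mul_of_nonneg_right h5 (abs_nonneg (u i))]
  by_contra hne
  have hp : 0 < |u i| * (θ / 2) := mul_pos (abs_pos.2 hne) (by positivity)
  have hC : 0 < |C| + 1 := by positivity
  have h1 := key (min ε₀ (|u i| * (θ / 2) / (|C| + 1))) (lt_min hε (by positivity)) (min_le_left _ _)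
  have h2 := (le_div_iff₀ hC).1 (min_le_right ε₀ (|u i| * (θ / 2) / (|C| + 1)))
  have h3 : 0 < min ε₀ (|u i| * (θ / 2) / (|C| + 1)) := lt_min hε (by positivity)
  nlinarith [mul_le_mul_of_nonneg_right (le_abs_self C) h3.le]


end Model

end Crest.Agent.R182
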