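import Crest.Agent.R182.CLZ.AuxA

/-! R182/CLZ/LocA (owner helper64): purity from finitely many fibres -/

set_option autoImplicit false
set_option linter.unusedVariables false
set_option linter.unusedSectionVars false
open Set Filter Topology MeasureTheory ProbabilityTheory Matrix Crest.GroupTheory
open scoped Pointwise commutatorElement ENNReal

noncomputable section
namespace Crest.Agent.R182

namespace Model
variable {h k : ℕ} (M : Model h k)

/-- `t', D` from `lw_dom ht`, `ε'' = min (ε' / 2) (ε' / D)`, `δ > 0` with `(K + k * (2 K)) δ ≤ ε' / 4`, `N` from `exists_netC (t / δ)` at the scale `δ w` for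
`S = ballCR (t w)` (first net), `w₀` from `stay t ε'`, `2 / δ`, `4 K / ε'`.  For `s ∈ [1, t]`, `g = exp X * c` (`stay`, `AdmC_subset_ballCR`), `y⁻¹ * c ∈ ballCR (δ w)`:
`‖er (p x exp X c) - er (p x exp X y)‖ ≤ ε' w / 2` (`Lip.norm_er`), `er (p * (x' * y)) - er p = cc (x' * y) p - L chi (x' * y)` (`er_sub`); `lw_dom` with `𝒱 = RV w`,
`Y = X ∈ t • Box w` (`smul_Qi_mono`, `star_RV`, `bxb_compact_RV`, `Box_subset_E`). -/
theorem loc_det (K t ε' : ℝ) (hK : 0 ≤ K) (ht : 1 ≤ t) (hε : 0 < ε') : ∃ (t' ε'' w₀ : ℝ) (N : ℕ), 1 ≤ t' ∧ 0 < ε'' ∧ ∀ w ≥ w₀,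
    ∃ F : Finset M.G, ↑F ⊆ M.ballCR (t * w) ∧ F.card ≤ N ∧ ∀ (φ : M.G → M.G) (p : M.G) (L : Mat k), M.Lip K φ → Mb L (2 * K) →
      (∀ y ∈ F, M.lw M.E (t' • M.Box w) {x | ε'' * w < ‖M.cc φ (x * y) p - L *ᵥ M.chi (x * y)‖} ≤ ENNReal.ofReal ε'') →
      M.PF φ p w L (M.er φ L p) t ε' := by
  obtain ⟨t', D, ht', hD, hdom⟩ := M.lw_dom ht
  obtain ⟨δ, hδ⟩ : ∃ δ : ℝ, δ = ε' / (4 * (K + k * (2 * K) + 1)) := ⟨_, rfl⟩
  have hδ0 : 0 < δ := by rw [hδ]; positivity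
  have hδ1 : (K + k * (2 * K) + 1) * δ = ε' / 4 := by rw [hδ]; field_simp
  obtain ⟨N, hN⟩ := M.exists_netC (t / δ)
  obtain ⟨w₁, hst⟩ := M.stay t ε' hε
  refine ⟨t', min (ε' / 2) (ε' / D), max w₁ (max (2 / δ) (4 * K / ε')), N, ht.trans ht', by positivity, fun w hw => ?_⟩
  simp only [ge_iff_le, max_le_iff] at hw
  obtain ⟨w1, w2, w3⟩ := hw
  rw [div_le_iff₀' hδ0] at w2
  rw [div_le_iff₀' hε] at w3
  have hw0 : 0 < w := (mul_pos_iff_of_pos_left hδ0).1 (by linarith)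
  obtain ⟨F, hF, hcard, hnet⟩ := (hN (δ * w) w2 (M.ballCR (t * w)) (by rw [show t / δ * (δ * w) = t * w by field_simp])).1
  refine ⟨F, hF, hcard, fun φ p L hφ hL hy s hs g hg => ?_⟩
  obtain ⟨X, hX, c, hc, rfl⟩ := hst w w1 _ le_rfl _ le_rfl g hg
  obtain ⟨y, hyF, hyc⟩ := hnet c (M.AdmC_subset_ballCR _ _ hc)
  have hXt : X ∈ t • M.Qi (M.RV w) 1 := M.smul_Qi_mono (M.star_RV w) zero_le_one ht (by rwa [one_smul])
  have h1 := (hdom M.E (M.RV w) s (Core.IsIdl.isSub _ M.isIdl_E) (M.star_RV w) (M.bxb_compact_RV w) hs.1 hs.2 X (M.Box_subset_E w hX) hXt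
    {x | min (ε' / 2) (ε' / D) * w < ‖M.cc φ (x * y) p - L *ᵥ M.chi (x * y)‖}).1
  refine (measure_mono fun x hx => ?_).trans (h1.trans ((mul_le_mul_right (hy y hyF) _).trans ?_))
  · have hx : ε' * w < ‖M.er φ L (p * x * (M.exp X * c)) - M.er φ L p‖ := hx
    show min (ε' / 2) (ε' / D) * w < ‖M.cc φ (x * M.exp X * y) p - L *ᵥ M.chi (x * M.exp X * y)‖
    have h2 := hφ.norm_er hL (y⁻¹ * c) (p * (x * M.exp X * y))
    have h3 : (K + k * (2 * K)) * (M.len (y⁻¹ * c) : ℝ) ≤ (K + k * (2 * K)) * (δ * w) :=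
      mul_le_mul_of_nonneg_left (M.ballCR_subset_ballR _ hyc) (by positivity)
    rw [show p * (x * M.exp X * y) * (y⁻¹ * c) = p * x * (M.exp X * c) by group] at h2
    rw [← sub_add_sub_cancel _ (M.er φ L (p * (x * M.exp X * y)))] at hx
    have h4 := hx.trans_le (norm_add_le _ _)
    have h5 : min (ε' / 2) (ε' / D) * w ≤ ε' / 2 * w := mul_le_mul_of_nonneg_right (min_le_left _ _) hw0.le
    have h6 : (K + k * (2 * K) + 1) * (δ * w) = ε' / 4 * w := by rw [← mul_assoc, hδ1]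
    rw [← M.er_sub]
    linarith
  · rw [← ENNReal.ofReal_mul (by linarith)]
    refine ENNReal.ofReal_le_ofReal ((mul_le_mul_of_nonneg_left (min_le_right _ _) (by linarith)).trans_eq ?_)
    field_simp


end Model

end Crest.Agent.R182
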