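import Crest.Agent.R182.CLZ.PickA

/-! R182/CLZ/Pick (owner helper64): from a volume estimate to one fibre -/

set_option autoImplicit false
set_option linter.unusedVariables false
set_option linter.unusedSectionVars false
open Set Filter Topology MeasureTheory ProbabilityTheory Matrix Crest.GroupTheory
open scoped Pointwise commutatorElement ENNReal

noncomputable section
namespace Crest.Agent.R182

namespace Model
variable {h k : ℕ} (M : Model h k)

/-- `s₀, D` from `lw_small`, `w = w' + s₀`, `la = lw E (Box w')` (`isProbabilityMeasure_lw_Box` with `t = 1`, `one_smul`, `lw_compl`),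
`Y₁ = exp (Box w') * {1} * ballCR (δ w)`, `Y` the same with `Box w`.  `vol Y ≤ D₃ vol Y₁` (`vol_region_le 2 D δ` at scale `w'`, `c = 1`, `δ w ≤ 2 w'`,
`δ w' ≤ δ w`), `0 < vol Y₁ < ∞` (`vol_Z_pos`, compactness), `vol (Y ∩ A) ≤ a₀ vol Y` (`cond_apply`).  With `a₀ = 1 / (4 D D₃)`, `le_vol_of_fibre` gives
`z = exp X * 1 * b ∈ Y₁` with `la {x | x * z ∈ A} < 2⁻¹`; `la {x | x * exp X ∈ A'} ≤ 4⁻¹`; the point is `x * exp X`. -/
theorem pick (δ : ℝ) (hδ : 0 < δ) (hδ1 : δ ≤ 1) : ∃ a₀ w₀ : ℝ, 0 < a₀ ∧ ∀ w ≥ w₀, ∀ A : Set M.G, MeasurableSet A →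
    (volume[|M.exp '' M.Box w * {1} * M.ballCR (δ * w)]) A ≤ ENNReal.ofReal a₀ → ∃ b ∈ M.ballCR (δ * w), ∀ A' : Set M.G,
      M.lw M.E (M.Box w) A' ≤ ENNReal.ofReal a₀ → ∃ x, x * b ∉ A ∧ x ∉ A' := by

  obtain ⟨s₀, D, hs₀, hD, hsm⟩ := M.lw_small
  obtain ⟨D₃, w₃, hD₃, hv⟩ := M.vol_region_le 2 D δ hδ
  refine ⟨1 / (4 * D * D₃), max (2 * s₀) (max (w₃ + s₀) (1 / δ)), by positivity, fun w hw A hA hvA => ?_⟩
  obtain ⟨w', rfl⟩ : ∃ w', w = w' + s₀ := ⟨w - s₀, by ring⟩
  have h1 : s₀ ≤ w' := by linarith [(le_max_left _ _).trans hw]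
  have h2 : w₃ ≤ w' := by linarith [(le_max_left _ _).trans ((le_max_right _ _).trans hw)]
  have h3 : 1 ≤ δ * (w' + s₀) := by
    have := (le_max_right _ _).trans ((le_max_right _ _).trans hw)
    rwa [div_le_iff₀' hδ] at this
  obtain ⟨hmul, hsub, hdom⟩ := hsm w'
  have hprob := M.isProbabilityMeasure_lw_Box one_pos w'
  rw [one_smul] at hprob
  have hc : ∀ u : ℝ, IsCompact (M.exp '' M.Box u * {1} * M.ballCR (δ * (w' + s₀))) := fun u =>
    (((M.isCompact_Box u).image M.continuous_exp).mul isCompact_singleton).mul (M.isCompact_ballCR _)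
  set Y₁ := M.exp '' M.Box w' * {1} * M.ballCR (δ * (w' + s₀)) with hY₁
  set Y := M.exp '' M.Box (w' + s₀) * {1} * M.ballCR (δ * (w' + s₀)) with hY
  have v1 : volume Y ≤ ENNReal.ofReal D₃ * volume Y₁ := by
    refine le_trans (measure_mono ?_) ((hv w' h2 1 (M.one_mem_ballCR (by linarith))).trans
      (mul_le_mul_right (measure_mono ?_) _))
    · rw [hY, Set.mul_singleton, show (fun x : M.G => x * 1) = id from funext mul_one, Set.image_id]
      exact Set.mul_subset_mul (image_mono hsub) (M.ballCR_mono (by nlinarith))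
    · exact Set.mul_subset_mul_left (M.ballCR_mono (by nlinarith))
  have v0 : volume Y₁ ≠ 0 := (M.vol_Z_pos w' (one_mem _) h3).ne'
  have v0' : volume Y ≠ 0 := (M.vol_Z_pos _ (one_mem _) h3).ne'
  have vt : volume Y₁ ≠ ∞ := (hc w').measure_lt_top.ne
  have v2 : volume (Y ∩ A) ≤ 4⁻¹ * volume Y₁ := by
    rw [cond_apply (hc _).measurableSet] at hvA
    have e := mul_le_mul_right hvA (volume Y)
    rw [← mul_assoc, ENNReal.mul_inv_cancel v0' (hc _).measure_lt_top.ne, one_mul] at e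
    refine e.trans ((mul_le_mul_left v1 _).trans ?_)
    rw [mul_comm, ← mul_assoc, ← ENNReal.ofReal_mul (by positivity)]
    refine mul_le_mul_left ?_ _
    rw [show (4⁻¹ : ℝ≥0∞) = ENNReal.ofReal 4⁻¹ by rw [ENNReal.ofReal_inv_of_pos (by norm_num)]; norm_num]
    refine ENNReal.ofReal_le_ofReal ?_
    rw [div_mul_eq_mul_div, div_le_iff₀ (by positivity)]
    nlinarith
  have v3 : ∃ z ∈ Y₁, M.lw M.E (M.Box w') {x | x * z ∈ A} < 2⁻¹ := by
    by_contra hcon
    push Not at hcon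
    have e := M.le_vol_of_fibre (M.lw_compl M.E (M.isCompact_Box w')) hA (hc w').measurableSet (Y := Y) ?_ hcon
    · have e2 := (ENNReal.mul_le_mul_iff_left v0 vt).1 (e.trans v2)
      exact absurd e2 (by norm_num)
    · rw [hY, mul_assoc, mul_assoc, ← mul_assoc]
      exact Set.mul_subset_mul_right ((Set.mul_subset_mul_right (image_mono inter_subset_right)).trans hmul)
  obtain ⟨_, ⟨_, ⟨_, ⟨X, hX, rfl⟩, _, rfl, rfl⟩, b, hb, rfl⟩, hz⟩ := v3
  refine ⟨b, hb, fun A' hA' => ?_⟩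
  have v4 : M.lw M.E (M.Box w') {x | x * M.exp X ∈ A'} ≤ 2⁻¹ := by
    refine (hdom X hX A').trans ((mul_le_mul_right hA' _).trans ?_)
    rw [← ENNReal.ofReal_mul (by positivity),
      show (2⁻¹ : ℝ≥0∞) = ENNReal.ofReal 2⁻¹ by rw [ENNReal.ofReal_inv_of_pos (by norm_num)]; norm_num]
    refine ENNReal.ofReal_le_ofReal ?_
    rw [mul_one_div, div_le_iff₀ (by positivity)]
    nlinarith
  by_contra hcon
  push Not at hcon
  have e : M.lw M.E (M.Box w') univ ≤ _ := (measure_mono fun x _ => ?_).trans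
    (measure_union_le {x | x * (M.exp X * 1 * b) ∈ A} {x | x * M.exp X ∈ A'})
  · rw [measure_univ] at e
    have := ENNReal.add_lt_add_of_lt_of_le (v4.trans_lt (by norm_num)).ne hz v4
    rw [ENNReal.inv_two_add_inv_two] at this
    exact absurd e (not_le.2 this)
  · by_cases hx : x * M.exp X * b ∈ A
    · exact Or.inl (by simpa [mul_assoc] using hx)
    · exact Or.inr (hcon _ hx)


end Model

end Crest.Agent.R182
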