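import Crest.Agent.R182.CLZ.AuxA

/-! R182/CLZ/PickA (owner helper64): tools for `pick` -/

set_option autoImplicit false
set_option linter.unusedVariables false
set_option linter.unusedSectionVars false
open Set Filter Topology MeasureTheory ProbabilityTheory Matrix Crest.GroupTheory
open scoped Pointwise commutatorElement ENNReal

noncomputable section
namespace Crest.Agent.R182

namespace Model
variable {h k : ℕ} (M : Model h k)

/-- The lower bound companion of `vol_le_of_fibre` (same proof, `B/V.lean`): `P = {(x, z) | z ∈ Y₁ ∧ x * z ∈ A}`; for `x ∈ S` the fibre of `P` over `x` is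
inside `(x * ·) ⁻¹' (Y ∩ A)` (`measure_preimage_mul`). -/
theorem le_vol_of_fibre {la : Measure M.G} [IsProbabilityMeasure la] {S Y₁ Y A : Set M.G} (hS : la Sᶜ = 0) (hA : MeasurableSet A)
    (hY₁ : MeasurableSet Y₁) (hsub : S * Y₁ ⊆ Y) {a : ℝ≥0∞} (ha : ∀ z ∈ Y₁, a ≤ la {x | x * z ∈ A}) :
    a * volume Y₁ ≤ volume (Y ∩ A) := by
  set P : Set (M.G × M.G) := {p | p.2 ∈ Y₁ ∧ p.1 * p.2 ∈ A} with hP
  have hPm : MeasurableSet P := (measurable_snd hY₁).inter ((measurable_fst.mul measurable_snd) hA)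
  have e1 : ∀ᵐ x ∂la, volume (Prod.mk x ⁻¹' P) ≤ volume (Y ∩ A) := by
    filter_upwards [show ∀ᵐ x ∂la, x ∈ S from hS] with x hx
    rw [← measure_preimage_mul volume x (Y ∩ A)]
    exact measure_mono fun z hz => ⟨hsub ⟨x, hx, z, hz.1, rfl⟩, hz.2⟩
  have e2 : ∀ z, Y₁.indicator (fun _ => a) z ≤ la ((fun x => (x, z)) ⁻¹' P) := fun z => by
    by_cases hz : z ∈ Y₁
    · rw [indicator_of_mem hz]
      exact (ha z hz).trans (measure_mono fun x hx => ⟨hz, hx⟩)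
    · rw [indicator_of_notMem hz]
      exact zero_le
  calc a * volume Y₁ ≤ ∫⁻ z, la ((fun x => (x, z)) ⁻¹' P) := by rw [← lintegral_indicator_const hY₁]; exact lintegral_mono e2
    _ = ∫⁻ x, volume (Prod.mk x ⁻¹' P) ∂la := by rw [← Measure.prod_apply hPm, Measure.prod_apply_symm hPm]
    _ ≤ ∫⁻ _, volume (Y ∩ A) ∂la := lintegral_mono_ae e1
    _ = _ := by rw [lintegral_const, measure_univ, mul_one]

/-- `lw_apply` twice; `S ∩ B ⊆ S' ∩ B`; `(hV U S)⁻¹ ≤ D * (hV U S')⁻¹` (`ENNReal.inv_le_inv`, `ENNReal.mul_inv`) -/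
theorem lw_le_of_subset (U : Submodule ℝ (V h)) {S S' : Set (V h)} (hS : IsCompact S) (hS' : IsCompact S') (hs : S ⊆ S') {D : ℝ} (hD : 0 < D)
    (hv : hV U S' ≤ ENNReal.ofReal D * hV U S) (A : Set M.G) : M.lw U S A ≤ ENNReal.ofReal D * M.lw U S' A := by
  have a0 : ENNReal.ofReal D ≠ 0 := (ENNReal.ofReal_pos.2 hD).ne'
  rw [M.lw_apply U hS, M.lw_apply U hS', ← mul_assoc]
  refine mul_le_mul' ?_ (measure_mono (inter_subset_inter_left _ hs))
  calc (hV U S)⁻¹ = ENNReal.ofReal D * (ENNReal.ofReal D * hV U S)⁻¹ := by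
        rw [ENNReal.mul_inv (Or.inl a0) (Or.inl ENNReal.ofReal_ne_top), ← mul_assoc,
          ENNReal.mul_inv_cancel a0 ENNReal.ofReal_ne_top, one_mul]
    _ ≤ _ := mul_le_mul_right (ENNReal.inv_le_inv.2 hv) _

/-- `D₁` from `exp_Qi_mul 1`, `t', D₂` from `lw_dom` at `t = 1` (`s = 1`, `𝒱 = RV w`, `star_RV`, `bxb_compact_RV`, `Box_subset_E`, `isIdl_E`), `b, B` from
`Box_scale`; `s₀ ≥ 0` with `max D₁ t' * exp (-(b s₀)) ≤ 1`, so `D₁ • Box w` and `t' • Box w` lie in `Box (w + s₀)` (`smul_Qi_mono`, `smul_smul`);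
`lw_le_of_subset` with `hV (Box (w + s₀)) ≤ exp (B s₀) ^ finrank * hV (Box w) ≤ … * hV (t' • Box w)` (`hV_smul`). -/
theorem lw_small : ∃ s₀ D : ℝ, 0 ≤ s₀ ∧ 1 ≤ D ∧ ∀ w : ℝ, M.exp '' M.Box w * M.exp '' M.Box w ⊆ M.exp '' M.Box (w + s₀) ∧
    M.Box (w + s₀) ⊆ D • M.Box w ∧ ∀ X ∈ M.Box w, ∀ A : Set M.G,
      M.lw M.E (M.Box w) {x | x * M.exp X ∈ A} ≤ ENNReal.ofReal D * M.lw M.E (M.Box (w + s₀)) A := by
  obtain ⟨D₁, hD₁, -, H₁⟩ := M.exp_Qi_mul 1
  obtain ⟨t', D₂, ht', hD₂, H₂⟩ := M.lw_dom (t := 1) le_rfl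
  obtain ⟨b, B, hb, hbB, H₃⟩ := M.Box_scale
  obtain ⟨m, hm₁, hm₂⟩ : ∃ m : ℝ, D₁ ≤ m ∧ t' ≤ m := ⟨max D₁ t', le_max_left _ _, le_max_right _ _⟩
  have hm : 1 ≤ m := hD₁.trans hm₁
  have hm0 : 0 < m := one_pos.trans_le hm
  have hs₀ : 0 ≤ Real.log m / b := div_nonneg (Real.log_nonneg hm) hb.le
  have hexp : Real.exp (-(b * (Real.log m / b))) = m⁻¹ := by
    rw [mul_div_cancel₀ _ hb.ne', Real.exp_neg, Real.exp_log hm0]
  obtain ⟨e, he⟩ : ∃ e : ℝ, e = Real.exp (B * (Real.log m / b)) := ⟨_, rfl⟩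
  have he1 : 1 ≤ e := he ▸ Real.one_le_exp (mul_nonneg (hb.le.trans hbB) hs₀)
  have he0 : 0 < e := one_pos.trans_le he1
  have hen : 1 ≤ e ^ Module.finrank ℝ M.E := one_le_pow₀ he1
  have hup : ∀ w a : ℝ, 0 ≤ a → a ≤ m → a • M.Box w ⊆ M.Box (w + Real.log m / b) := by
    intro w a ha ham
    have h1 := (H₃ w _ hs₀).2
    rw [hexp] at h1
    have h2 : a • M.Box w ⊆ (a * m⁻¹) • M.Box (w + Real.log m / b) := by
      rw [mul_smul]
      exact smul_set_mono h1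
    have h3 := M.smul_Qi_mono (M.star_RV (w + Real.log m / b)) (s := a * m⁻¹) (t := 1) (by positivity)
      (by rw [← div_eq_mul_inv]; exact (div_le_one hm0).2 ham)
    rw [one_smul] at h3
    exact h2.trans h3
  have hD : e ≤ D₂ * e ^ Module.finrank ℝ M.E * e :=
    le_mul_of_one_le_left he0.le (one_le_mul_of_one_le_of_one_le hD₂ hen)
  refine ⟨Real.log m / b, D₂ * e ^ Module.finrank ℝ M.E * e, hs₀, he1.trans hD, fun w => ⟨?_, ?_, fun X hX A => ?_⟩⟩
  · have h1 := H₁ _ (M.star_RV w)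
    rw [one_smul] at h1
    exact h1.trans (image_mono (hup w D₁ (zero_le_one.trans hD₁) hm₁))
  · have h1 := (H₃ w _ hs₀).1
    rw [← he] at h1
    exact h1.trans (M.smul_Qi_mono (M.star_RV w) he0.le hD)
  · have h1 := (H₂ M.E (M.RV w) 1 (Core.IsIdl.isSub _ M.isIdl_E) (M.star_RV w) (M.bxb_compact_RV w) le_rfl le_rfl X
      (M.Box_subset_E w hX) (by rw [one_smul]; exact hX) A).1
    rw [one_smul] at h1
    have h2 : M.Box w ⊆ t' • M.Box w := by
      have := M.smul_Qi_mono (M.star_RV w) zero_le_one ht'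
      rwa [one_smul] at this
    have h3 : hV M.E (M.Box (w + Real.log m / b)) ≤ ENNReal.ofReal (e ^ Module.finrank ℝ M.E) * hV M.E (t' • M.Box w) := by
      have h4 := (H₃ w _ hs₀).1
      rw [← he] at h4
      calc _ ≤ hV M.E (e • M.Box w) := measure_mono h4
        _ = _ := hV_smul _ he0 _
        _ ≤ _ := mul_le_mul_right (measure_mono h2) _
    have h5 := M.lw_le_of_subset M.E ((M.isCompact_Box w).smul t') (M.isCompact_Box _) (hup w t' (zero_le_one.trans ht') hm₂)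
      (one_pos.trans_le hen) h3 A
    refine h1.trans ((mul_le_mul_right h5 _).trans ?_)
    rw [← mul_assoc, ← ENNReal.ofReal_mul (zero_le_one.trans hD₂)]
    exact mul_le_mul_left (ENNReal.ofReal_le_ofReal (le_mul_of_one_le_right (by positivity) he1)) _


end Model

end Crest.Agent.R182
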