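import Crest.Agent.R182.CLZ.RayA
import Crest.Agent.R182.CLZ.AuxB
import Crest.Agent.R182.CLX.Det

/-! R182/CLZ/Ray (owner helper64): P3 -/

set_option autoImplicit false
set_option linter.unusedVariables false
set_option linter.unusedSectionVars false
open Set Filter Topology MeasureTheory ProbabilityTheory Matrix Crest.GroupTheory
open scoped Pointwise commutatorElement ENNReal

noncomputable section
namespace Crest.Agent.R182

namespace Model
variable {h k : ℕ} (M : Model h k)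

/-- By contradiction.  `γ = β ᵥ* L ≠ 0` (`det_ne_of_occ`, `Matrix.exists_vecMul_eq_zero_iff`), `A` from `exists_Aff`, `Λ` from `ray_word`, `Λ'` from `exists_mb L L`,
`B, c` from `sp K A`, `B'` from `ray_tube`, `δ = 1 / (2 Λ)`, `ρ = δ w`, `r = c δ w / (2 B)`, `ε₁ = min 4⁻¹ (c δ / (4 B (2 nm β k + 1)))`; `t, ε, w₀` from
`path K Λ' (1 / 2) ε₁`; `ray_num` with `a = min (c δ / 2) (c δ / (4 B))`, `B₂ = B' Λ δ exp Λ`.  `fubini_contra` with `ν = lw E (Gv ρ)`, `la = lw E (Box w)`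
(`isProbabilityMeasure_lw_Gv/Box` at `t = 1`, `one_smul`) and
`{(x', x) | ‖bb ((φ (p x))⁻¹ φ (p x x'))‖ ≤ exp r ∧ -r ≤ β ⬝ chi (…)}` (`Aff.continuous_bb`, `measurable_chi`): `sp` at the base point `p * x`, `y = φ (p * x)`;
for `x' = exp X`, `X ∈ Gv ρ` (`lw_compl`): the word of `ray_word`, `path` at `c = 1` (`nm_chi_le`, `Wrd.len_le`, `Wrd.of_prefix`), `ray_tube` with `e = ε₁ w`. -/
theorem ray_of_occ {K : ℝ} {L : Mat k} (hL : ∀ t ε w₀ : ℝ, 0 < ε → ∃ (f : M.QP K) (p : M.G) (w : ℝ) (κ : Fin k → ℝ),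
    w₀ ≤ w ∧ M.PF f.φ p w L κ t ε) : ∀ β ∈ M.R1, ∃ α ∈ M.R1, ∃ c : ℝ, 0 < c ∧ β ᵥ* L = c • α := by
  sorry


end Model

end Crest.Agent.R182
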