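import Crest.Agent.R182.CLZ.AuxA

/-! R182/CLZ/RayA (owner helper64): tools for `Occ.ray` -/

set_option autoImplicit false
set_option linter.unusedVariables false
set_option linter.unusedSectionVars false
open Set Filter Topology MeasureTheory ProbabilityTheory Matrix Crest.GroupTheory
open scoped Pointwise commutatorElement ENNReal

noncomputable section
namespace Crest.Agent.R182

namespace Model
variable {h k : ℕ} (M : Model h k)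

/-- For `α ∈ R1`: `exists_sep_ray`, `exists_int_cone` for `{α, -γ}` give `t α ∈ C` with `0 < α ⬝ chi (t α)`, `γ ⬝ chi (t α) < 0` (`choose!`).
`exists_word R1 t`, `idl_R1`, `Gv_subset_E`, `norm_Qi` (`𝒱 = EV ρ`), `R = B ρ`.  On a prefix `chi = chi s + j • chi x + chi s'` (`chi_mul`, `chi_exp`, `chi_pow`),
`γ ⬝ chi s ≤ nm γ * Λ` (`abs_dot_le_nm`, `nm_chi_le`). -/
theorem ray_word {γ : Fin k → ℝ} (hγ : γ ≠ 0) (hn : ∀ α ∈ M.R1, ¬∃ c : ℝ, 0 < c ∧ γ = c • α) : ∃ Λ : ℝ, 1 ≤ Λ ∧ ∀ ρ : ℝ, 1 ≤ ρ →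
    ∀ X ∈ M.Gv ρ, ∃ l, M.Wrd l ∧ (l.length : ℝ) ≤ Λ * ρ ∧ l.prod = M.exp X ∧ ∀ l', l' <+: l → γ ⬝ᵥ M.chi l'.prod ≤ Λ := by
  sorry

/-- `Aff.norm_bb_image A K 1` (`Wrd.mem_ballR`); `cc φ l'.prod q = L *ᵥ chi l'.prod + (er (q * l'.prod) - er q)` (`er_sub`, the prefix `[]` gives `er q`),
`dotProduct_mulVec`, `abs_dot_le`, `cc_eq` -/
theorem ray_tube {β : Fin k → ℝ} (A : M.Aff β) (K : ℝ) (hK : 0 ≤ K) : ∃ B : ℝ, 1 ≤ B ∧ ∀ (φ : M.G → M.G) (L : Mat k) (κ : Fin k → ℝ) (q : M.G)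
    (l : List M.G) (e Λ : ℝ), M.Lip K φ → M.Wrd l → M.chi l.prod = 0 → (∀ l', l' <+: l → (β ᵥ* L) ⬝ᵥ M.chi l'.prod ≤ Λ) →
      (∀ l', l' <+: l → ‖M.er φ L (q * l'.prod) - κ‖ ≤ e) →
      ‖A.bb ((φ q)⁻¹ * φ (q * l.prod))‖ ≤ B * l.length * Real.exp (Λ + nm β * (k * (2 * e))) ∧
        -(nm β * (k * (2 * e))) ≤ β ⬝ᵥ M.chi ((φ q)⁻¹ * φ (q * l.prod)) := by
  sorry

omit M in
/-- both are `∀ᶠ w in atTop` statements (`Real.tendsto_exp_atBot`, `bxf_poly` or `x ≤ exp x` twice) -/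
theorem _root_.Crest.Agent.R182.ray_num (B₁ B₂ : ℝ) {a : ℝ} (ha : 0 < a) : ∃ w₀ : ℝ, ∀ w ≥ w₀, B₁ * Real.exp (-(a * w)) ≤ 4⁻¹ ∧
    B₂ * w ≤ Real.exp (a * w) := by
  sorry


end Model

end Crest.Agent.R182
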