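import Crest.Agent.R182.CLZ.RbA
import Crest.Agent.R182.CLX.Det

/-! R182/CLZ/Rb (owner helper64): P2 -/

set_option autoImplicit false
set_option linter.unusedVariables false
set_option linter.unusedSectionVars false
open Set Filter Topology MeasureTheory ProbabilityTheory Matrix Crest.GroupTheory
open scoped Pointwise commutatorElement ENNReal

noncomputable section
namespace Crest.Agent.R182

namespace Model
variable {h k : ℕ} (M : Model h k)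

/-- `r = rb (mI v)`; `exists_dir` (`det_ne_of_occ`), `mI_congr`, `r' = rb (mI (chi d'))` (`Dir.reg'`); `B` from `cmp K (gi_mI _) (gi_mI _)`; `exists_CH_of_occ`;
`eq_zero_of_small` for `u = r - r' ᵥ* L`, `C = B + nm r' * k * 2` (take `w ≥ 1 / θ, 1 / ε₁`; `dotProduct_mulVec`, `abs_dot_le`) -/
theorem rb_of_occ {K : ℝ} {L : Mat k} (hL : ∀ t ε w₀ : ℝ, 0 < ε → ∃ (f : M.QP K) (p : M.G) (w : ℝ) (κ : Fin k → ℝ),
    w₀ ≤ w ∧ M.PF f.φ p w L κ t ε) : ∀ r ∈ M.RB, ∃ r' ∈ M.RB, r = r' ᵥ* L := by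
  rintro _ ⟨v, hv, rfl⟩
  have hdet := M.det_ne_of_occ hL
  obtain ⟨d, d', hd, hs⟩ := M.exists_dir hdet hv
  rw [← M.mI_congr hs]
  refine ⟨_, ⟨_, hd.reg', rfl⟩, sub_eq_zero.1 ?_⟩
  obtain ⟨B, hB, hc⟩ := M.cmp K (M.gi_mI (M.chi d)) (M.gi_mI (M.chi d'))
  obtain ⟨θ, ε₀, hθ, hε₀, H⟩ := M.exists_CH_of_occ hL hdet hd hB
  refine M.eq_zero_of_small _ (C := B + nm (M.rb (M.mI (M.chi d'))) * k * 2) hθ hε₀ fun ε₁ h1 h2 w₁ => ?_
  obtain ⟨f, w, hw, H'⟩ := H ε₁ h1 h2 (max w₁ (max θ⁻¹ ε₁⁻¹))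
  refine ⟨w, (le_max_left _ _).trans hw, fun g hg => ?_⟩
  obtain ⟨q, hq, he⟩ := H' g hg
  have h3 : 1 ≤ θ * w := (inv_le_iff_one_le_mul₀' hθ).1 (((le_max_left _ _).trans (le_max_right _ _)).trans hw)
  have h4 : 1 ≤ ε₁ * w := (inv_le_iff_one_le_mul₀' h1).1 (((le_max_right _ _).trans (le_max_right _ _)).trans hw)
  have h5 := hc f _ _ _ _ q g h3 h4 le_rfl le_rfl hg hq
  have h6 := (le_abs_self _).trans ((abs_dot_le (M.rb (M.mI (M.chi d'))) _).trans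
    (mul_le_mul_of_nonneg_left (mul_le_mul_of_nonneg_left he k.cast_nonneg) (nm_nonneg _)))
  rw [dotProduct_sub] at h6
  rw [sub_dotProduct, ← dotProduct_mulVec]
  linarith


end Model

end Crest.Agent.R182
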