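import Crest.Agent.R182.CLZ.Pick

/-! R182/CLZ/RbA (owner helper64): the hypothesis of `cmp` holds somewhere -/

set_option autoImplicit false
set_option linter.unusedVariables false
set_option linter.unusedSectionVars false
open Set Filter Topology MeasureTheory ProbabilityTheory Matrix Crest.GroupTheory
open scoped Pointwise commutatorElement ENNReal

noncomputable section
namespace Crest.Agent.R182

namespace Model
variable {h k : ℕ} (M : Model h k)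

omit M in
/-- `nm_add_le`, `nm_neg`, `nm_smul` -/
theorem _root_.Crest.Agent.R182.room_of_le {a v : Fin k → ℝ} {T H : ℝ} (hH : nm a + T * nm v ≤ H) : Room a v T H := by
  sorry

/-- `Λ` from `exists_mb L L⁻¹`, `Λ₁` from `eng1`, `Λ₃` from `eng3`, `m = 1 / 2`, `δ₀` from `eng3`, `δ = min δ₀ (1 / 8)`, `a₀` from `pick δ`.
`N = 1 + (Λ₁ + Λ₃) * (nm (chi d) + nm (L⁻¹ *ᵥ chi d'))`, `θ = 1 / (8 B² N)`, `ε₀ = min θ (a₀ / 4)`; then `R = B (B (θ w + ε₁ w)) ≤ w / (4 N)`, so all `Room`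
conditions hold (`room_of_le`, `nm_chi_le`).  Given `ε₁, w₁` take `f, p, w, κ` from `hL` at `t = max`, `ε = min (ε₁, 1 / 2, …)` of the constants of `eng1 K Λ (1/2) ε₁`,
`eng3 … δ ε₁` (`PF.mono`).  `eng3` at `c = 1` (`be_one`, `AdmC_mono`, `chi_one`), `pick` with `A = {z | ¬P3 … (p * z)}` (`measurableSet_P3`, `gi_mI`) gives `b`;
for `g` apply it to the union `A'` of four sets of measure `≤ ε₁`: `eng1` at (`c = b`, `g = 1`) and at (`c = b * g`, `g`), `PF` at `s = 1` (`one_smul`) for `b` and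
`b * g` (`ballR_subset_Adm`, `Adm_mono`).  `q = p * x * b`; `er_sub`. -/
theorem exists_CH_of_occ {K : ℝ} {L : Mat k} (hL : ∀ t ε w₀ : ℝ, 0 < ε → ∃ (f : M.QP K) (p : M.G) (w : ℝ) (κ : Fin k → ℝ),
    w₀ ≤ w ∧ M.PF f.φ p w L κ t ε) (hdet : L.det ≠ 0) {d d' : M.G} (hd : M.Dir L d d') {B : ℝ}
    (hB : 1 ≤ B) : ∃ θ ε₀ : ℝ, 0 < θ ∧ 0 < ε₀ ∧ ∀ ε₁, 0 < ε₁ → ε₁ ≤ ε₀ → ∀ w₁ : ℝ, ∃ (f : M.QP K) (w : ℝ), w₁ ≤ w ∧
      ∀ g ∈ M.ballR (θ * w), ∃ q, M.CH f.φ f.ψ (M.mI (M.chi d)) (M.mI (M.chi d')) (M.mI (M.chi d'))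
        (B * (B * (θ * w + ε₁ * w))) (B * (θ * w + ε₁ * w)) (ε₁ * w) q g ∧ ‖M.cc f.φ g q - L *ᵥ M.chi g‖ ≤ 2 * ε₁ * w := by
  sorry


end Model

end Crest.Agent.R182
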